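import Vale.Agent.P235Layer.Apex

/-!
# P235: layered L1 embeddings and bounded elimination distance

A gluing theorem for L1 embeddings of finite graph metrics, proved with an elementary truncation of
L1 pseudometrics, and two consequences: the L1 distortion stays bounded under bounded elimination
distance, and graphs of elimination distance d to forests have L1 distortion O(d + 1).
-/

namespace Vale.Agent.Results.P235.LayeredApexEmbedding

open Vale.Agent.P235Layer

theorem result :
    (∀ (V : Type) [Fintype V] (G : SimpleGraph V), G.Connected →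
      ∀ ℓ : Sym2 V → ℝ, (∀ e ∈ G.edgeSet, 0 < ℓ e) →
      ∀ (m : ℕ) (layer : V → Fin m) (n : Fin m → ℕ) (F : ∀ i, V → Fin (n i) → ℝ) (K : Fin m → ℝ),
        (∀ i, 1 ≤ K i) → Monotone K →
        (∀ i u v, G.Adj u v → i ≤ layer u → i ≤ layer v →
          ∑ j, |F i u j - F i v j| ≤ K i * ℓ s(u, v)) →
        (∀ i x y, layer x = i → layer y = i → pathDist G ℓ x y ≤ ∑ j, |F i x j - F i y j|) →
        EmbedsL1 (pathDist G ℓ) (1152 * ∑ i, K i)) ∧
    (∀ (V : Type) [Fintype V] (G : SimpleGraph V), G.Connected →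
      ∀ (d : ℕ) (lev : V → ℕ), (∀ v, lev v ≤ d) →
        (∀ i, i < d → ∀ x y : {v // i ≤ lev v}, lev x.1 = i → lev y.1 = i →
          (G.induce {v | i ≤ lev v}).Reachable x y → x = y) →
      ∀ X : Finset V, (∀ v, v ∈ X ↔ lev v < d) →
        (∀ C : ℝ, 0 ≤ C →
          (∀ c : (G.induce ((X : Set V)ᶜ)).ConnectedComponent, C1Le c.toSimpleGraph C) →
          C1Le G (1152 * ((d : ℝ) + C + 1))) ∧
        ((G.induce ((X : Set V)ᶜ)).IsAcyclic → C1Le G (1152 * ((d : ℝ) + 2)))) ∧
    (∀ (V : Type) [Fintype V] (G : SimpleGraph V), G.Connected →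
      ∀ (X : Finset V) (C : ℝ), 0 ≤ C →
        (∀ c : (G.induce ((X : Set V)ᶜ)).ConnectedComponent, C1Le c.toSimpleGraph C) →
        C1Le G (1152 * ((X.card : ℝ) + C + 1))) := by
  refine ⟨?_, ?_, ?_⟩
  · intro V _ G hG ℓ hℓ m layer n F K hK hmono hlip hlayer
    exact embedsL1_of_layers hG hℓ m layer n F K hK hmono hlip hlayer
  · intro V _ G hG d lev hlev helim X hXd
    exact ⟨fun C hC hcomp => c1Le_of_elimination hG d lev hlev helim X hXd C hC hcomp,
      fun hA => c1Le_of_elimination_forest hG d lev hlev helim X hXd hA⟩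
  · intro V _ G hG X C hC hcomp
    exact c1Le_of_apices hG X X.card le_rfl C hC hcomp

end Vale.Agent.Results.P235.LayeredApexEmbedding
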